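import Vale.Agent.P366.H375.W.W3
import Vale.Agent.P366.Kerr.DefsL

/-! The data induced on a hypersurface only depend on the first order jet of the metric. -/

open MeasureTheory Metric Filter Topology Set
open scoped ContDiff ENNReal

noncomputable section
namespace Vale.Agent.P366.KSL

open Vale.Agent.P366 (E)
open Vale.Agent.P366.H375 (HP)
open Vale.Agent.P366.Kerr (pt sp nul ksG ksL indG indK lapse)

section Gen

variable {m : ℕ} {g g' : Stmt.Field m} {x : E m}

lemma up_congr (h0 : ∀ a b, g x a b = g' x a b) (a b : Fin m) :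
    Stmt.up g a b x = Stmt.up g' a b x := by
  have h : g x = g' x := funext fun i => funext fun j => h0 i j
  simp only [Stmt.up, Stmt.mat, h]

lemma chr_congr (h0 : ∀ a b, g x a b = g' x a b)
    (h1 : ∀ a b c, Stmt.pd c (fun q => g q a b) x = Stmt.pd c (fun q => g' q a b) x)
    (a b c : Fin m) : Stmt.chr g a b c x = Stmt.chr g' a b c x := by
  simp only [Stmt.chr, up_congr h0, h1]

/-- the jet of `η + V l ⊗ l` -/
lemma hp_ksL {e : Fin m → ℝ} {l : Fin m → E m → ℝ} {V : E m → ℝ} (hV : DifferentiableAt ℝ V x)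
    (hl : ∀ a, DifferentiableAt ℝ (l a) x) (c a b : Fin m) :
    HP c (fun q => (if a = b then e a else 0) + V q * l a q * l b q)
      (0 + ((Stmt.pd c V x * l a x + V x * Stmt.pd c (l a) x) * l b x +
        V x * l a x * Stmt.pd c (l b) x)) x :=
  (HP.const c _ x).add (((HP.of_diff hV).mul (HP.of_diff (hl a))).mul (HP.of_diff (hl b)))

end Gen

variable {n : ℕ} {f : E n → ℝ} {y : E n}

/-- The data induced on a hypersurface only depend on the first order jet of the metric. -/
theorem ind_congr {G G' : Stmt.Field (n + 1)}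
    (h0 : ∀ a b, G (pt (f y) y) a b = G' (pt (f y) y) a b)
    (h1 : ∀ a b c, Stmt.pd c (fun q => G q a b) (pt (f y) y) =
      Stmt.pd c (fun q => G' q a b) (pt (f y) y)) (i j : Fin n) :
    indG G f y i j = indG G' f y i j ∧ indK G f y i j = indK G' f y i j := by
  refine ⟨?_, ?_⟩
  · simp only [indG, h0]
  · simp only [indK, lapse, up_congr h0, chr_congr h0 h1]

/-- The version for Kerr-Schild metrics. -/
theorem ind_congr_ksL {l l' : Fin (n + 1) → E (n + 1) → ℝ} {V V' : E (n + 1) → ℝ}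
    (hll : ∀ a, l a =ᶠ[𝓝 (pt (f y) y)] l' a) (hl : ∀ a, DifferentiableAt ℝ (l a) (pt (f y) y))
    (hV : DifferentiableAt ℝ V (pt (f y) y)) (hV' : DifferentiableAt ℝ V' (pt (f y) y))
    (v0 : V (pt (f y) y) = V' (pt (f y) y))
    (v1 : ∀ a, Stmt.pd a V (pt (f y) y) = Stmt.pd a V' (pt (f y) y)) (i j : Fin n) :
    indG (ksL l V) f y i j = indG (ksL l' V') f y i j ∧
      indK (ksL l V) f y i j = indK (ksL l' V') f y i j := by
  have hl' : ∀ a, DifferentiableAt ℝ (l' a) (pt (f y) y) := fun a =>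
    (hl a).congr_of_eventuallyEq (hll a).symm
  have e0 : ∀ a, l a (pt (f y) y) = l' a (pt (f y) y) := fun a => (hll a).self_of_nhds
  have e1 : ∀ a c, Stmt.pd c (l a) (pt (f y) y) = Stmt.pd c (l' a) (pt (f y) y) := fun a c =>
    H375.pd_congr (hll a) c
  refine ind_congr (fun a b => ?_) (fun a b c => ?_) i j
  · unfold ksL
    rw [v0, e0, e0]
  · have h1 := (hp_ksL (e := Kerr.sgn) hV hl c a b).pd
    have h2 := (hp_ksL (e := Kerr.sgn) hV' hl' c a b).pd
    show Stmt.pd c (fun q => (if a = b then Kerr.sgn a else 0) + V q * l a q * l b q) _ =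
      Stmt.pd c (fun q => (if a = b then Kerr.sgn a else 0) + V' q * l' a q * l' b q) _
    rw [h1, h2, v0, v1, e0, e0, e1, e1]

lemma ksG_eq_ksL (lam : E n → ℝ) (V : E (n + 1) → ℝ) :
    ksG lam V = ksL (fun a => Stmt.pd a (nul lam)) V := by
  funext p a b
  unfold ksG ksL Kerr.sgn
  by_cases h : a = b
  · simp only [h]
  · simp only [h]

/-- The version for a null function `t + λ`. -/
theorem ind_congr_ksG {lam lam' : E n → ℝ} {V V' : E (n + 1) → ℝ} (hll : lam =ᶠ[𝓝 y] lam')
    (hl : ContDiffAt ℝ ∞ lam y)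
    (hV : DifferentiableAt ℝ V (pt (f y) y)) (hV' : DifferentiableAt ℝ V' (pt (f y) y))
    (v0 : V (pt (f y) y) = V' (pt (f y) y))
    (v1 : ∀ a, Stmt.pd a V (pt (f y) y) = Stmt.pd a V' (pt (f y) y)) (i j : Fin n) :
    indG (ksG lam V) f y i j = indG (ksG lam' V') f y i j ∧
      indK (ksG lam V) f y i j = indK (ksG lam' V') f y i j := by
  have hsp : sp (pt (f y) y) = y := KSN.X2.sp_pt (f y) y
  rw [ksG_eq_ksL, ksG_eq_ksL]
  have hc : ContinuousAt (sp : E (n + 1) → E n) (pt (f y) y) := KSN.X1.sp_cont.continuousAt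
  have hnul : nul lam =ᶠ[𝓝 (pt (f y) y)] nul lam' := by
    have h1 : ∀ᶠ z in 𝓝 (sp (pt (f y) y)), lam z = lam' z := by rw [hsp]; exact hll
    filter_upwards [hc.eventually h1] with q hq
    unfold nul
    rw [hq]
  have hsm : ContDiffAt ℝ ∞ (nul lam) (pt (f y) y) :=
    KSN.X1.nul_contDiffAt (by rw [hsp]; exact hl)
  refine ind_congr_ksL (fun a => ?_) (fun a => ?_) hV hV' v0 v1 i j
  · filter_upwards [hnul.eventuallyEq_nhds] with q hq
    exact H375.pd_congr hq a
  · exact (H375.cd_pd hsm a).differentiableAt (by simp)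

end Vale.Agent.P366.KSL
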