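import Vale.Agent.P366.H375.X2

/-! Null expansion of the boundary from the first order jet of the metric at the point. -/

open MeasureTheory Metric Filter Topology Set
open scoped ContDiff ENNReal

noncomputable section
namespace Vale.Agent.P366.H375
open Vale.Agent.P366.Stmt

variable {n : ℕ}

/-- the jet of the data; `F` is a defining function of the boundary, `L` is the Hessian of the
function `λ` -/
structure JetW (g : Field n) (F f : E n → ℝ) (L : Fin n → Fin n → ℝ) (x : E n) (p : Pt n) (r : ℝ)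
    (b vk γ : Fin n → ℝ) : Prop where
  cf : ContDiffAt ℝ ∞ f x
  Ls : ∀ i j, L i j = L j i
  r0 : 0 < r
  pF : ∀ i, pd i F x = r * p.F i
  pFF : ∀ i j, pd i (pd j F) x = r * (pd i (pd j f) x + L i j) +
    (b i * p.F j + p.F i * b j)
  eik : ∀ i, ∑ j, L i j * p.u j = 0
  gx : ∀ i j, g x i j = p.G i j
  pg : ∀ k i j, pd k (fun y => g y i j) x =
    - (pd k (pd i f) x * p.f j + p.f i * pd k (pd j f) x) + vk k * (p.F i * p.F j) +
      p.v * ((pd k (pd i f) x + L k i) * p.F j +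
        p.F i * (pd k (pd j f) x + L k j)) + p.F k * (γ i * p.F j + p.F i * γ j)

namespace JetW

variable {g : Field n} {F f : E n → ℝ} {L : Fin n → Fin n → ℝ} {x : E n} {p : Pt n} {r : ℝ} {b vk γ : Fin n → ℝ}
  (h : JetW g F f L x p r b vk γ)

include h

lemma up_eq (i j : Fin n) : up g i j x = p.U i j := by
  have e : mat g x * (Matrix.of fun i j => p.U i j) = 1 := by
    ext i k
    rw [Matrix.mul_apply]
    have : ∀ j, mat g x i j * (Matrix.of fun i j => p.U i j) j k = p.G i j * p.U j k := by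
      intro j
      rw [Matrix.of_apply]
      unfold mat
      rw [h.gx]
    simp only [this, p.GU]
    unfold dl
    rw [Matrix.one_apply]
  unfold up
  rw [Matrix.inv_eq_right_inv e, Matrix.of_apply]

lemma covNorm_eq : covNorm g (fun j => pd j F) x = r * (p.S / p.s) := by
  unfold covNorm
  simp only [h.up_eq, h.pF]
  have e : ∑ i, ∑ j, p.U i j * (r * p.F i) * (r * p.F j) =
      r ^ 2 * ∑ i, ∑ j, p.U i j * p.F i * p.F j := by
    simp only [Finset.mul_sum]
    exact Finset.sum_congr rfl fun i _ => Finset.sum_congr rfl fun j _ => by ring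
  rw [e, p.FUF, ← mul_pow]
  exact Real.sqrt_sq (mul_pos h.r0 (div_pos p.S0 p.s0)).le

lemma nrm_eq (i : Fin n) : nrm g F i x = p.N i := by
  unfold nrm
  rw [h.covNorm_eq]
  simp only [h.up_eq, h.pF]
  have e : ∑ j, p.U i j * (r * p.F j) = r * ∑ j, p.U i j * p.F j := by
    simp only [Finset.mul_sum]
    exact Finset.sum_congr rfl fun j _ => by ring
  rw [e, p.UF]
  have hs0 : p.s ≠ 0 := p.s0.ne'
  have hS0 : p.S ≠ 0 := p.S0.ne'
  have hr0 : r ≠ 0 := h.r0.ne'
  unfold Pt.N
  field_simp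

lemma trS_eq (T : Field n) : trS g T F x = p.ct (T x) := by
  unfold trS tr Pt.ct
  rw [← Finset.sum_sub_distrib]
  refine Finset.sum_congr rfl fun i _ => ?_
  rw [← Finset.sum_sub_distrib]
  refine Finset.sum_congr rfl fun j _ => ?_
  rw [h.up_eq, h.nrm_eq, h.nrm_eq, ← p.U_sub]
  ring

/-- contraction of the Christoffel symbols with `dF` -/
lemma chr_F (i j : Fin n) : ∑ k, chr g k i j x * p.F k =
    ∑ l, (p.u l + p.S / p.s ^ 2 * p.m l) *
      ((pd i (fun y => g y j l) x + pd j (fun y => g y i l) x - pd l (fun y => g y i j) x) / 2) := by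
  have e : ∀ k, chr g k i j x * p.F k = ∑ l, p.U l k * p.F k *
      ((pd i (fun y => g y j l) x + pd j (fun y => g y i l) x - pd l (fun y => g y i j) x) / 2) := by
    intro k
    unfold chr
    rw [div_mul_eq_mul_div, Finset.sum_mul, Finset.sum_div]
    refine Finset.sum_congr rfl fun l _ => ?_
    rw [h.up_eq, p.U_symm]
    ring
  simp only [e]
  rw [Finset.sum_comm]
  refine Finset.sum_congr rfl fun l _ => ?_
  rw [← Finset.sum_mul, p.UF]

lemma chr_F' (i j : Fin n) : ∑ k, chr g k i j x * p.F k =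
    - ((p.S - p.c) / p.s ^ 2) * pd i (pd j f) x +
      p.v * (p.S ^ 2 / p.s ^ 2) * (pd i (pd j f) x + L i j) +
      (p.S ^ 2 / p.s ^ 2) / 2 * (vk i * p.F j + p.F i * vk j) -
      ((∑ l, (p.u l + p.S / p.s ^ 2 * p.m l) * vk l) / 2 -
        ∑ l, (p.u l + p.S / p.s ^ 2 * p.m l) * γ l) * (p.F i * p.F j) := by
  rw [h.chr_F, ← Jet.Zf, ← Jet.ZF]
  have e : ∀ l, (p.u l + p.S / p.s ^ 2 * p.m l) *
      ((pd i (fun y => g y j l) x + pd j (fun y => g y i l) x - pd l (fun y => g y i j) x) / 2) =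
      - pd i (pd j f) x * ((p.u l + p.S / p.s ^ 2 * p.m l) * p.f l) +
      p.v * (pd i (pd j f) x + L i j) * ((p.u l + p.S / p.s ^ 2 * p.m l) * p.F l) +
      (vk i * p.F j + p.F i * vk j) / 2 * ((p.u l + p.S / p.s ^ 2 * p.m l) * p.F l) -
      (p.F i * p.F j) / 2 * ((p.u l + p.S / p.s ^ 2 * p.m l) * vk l) +
      (p.F i * p.F j) * ((p.u l + p.S / p.s ^ 2 * p.m l) * γ l) := by
    intro l
    rw [h.pg i j l, h.pg j i l, h.pg l i j, pd_symm h.cf j i, h.Ls j i,
      pd_symm h.cf l i, pd_symm h.cf l j, h.Ls l i, h.Ls l j]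
    ring
  simp only [e, Finset.sum_add_distrib, Finset.sum_sub_distrib, ← Finset.mul_sum]
  ring

lemma hess_eq (i j : Fin n) : hess g F x i j =
    r * ((1 - p.v * (p.S ^ 2 / p.s ^ 2)) * (pd i (pd j f) x + L i j) +
      ((p.S - p.c) / p.s ^ 2) * pd i (pd j f) x) +
      (b i - r * ((p.S ^ 2 / p.s ^ 2) / 2 * vk i)) * p.F j +
      p.F i * (b j - r * ((p.S ^ 2 / p.s ^ 2) / 2 * vk j) +
      r * (((∑ l, (p.u l + p.S / p.s ^ 2 * p.m l) * vk l) / 2 -
        ∑ l, (p.u l + p.S / p.s ^ 2 * p.m l) * γ l) * p.F j)) := by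
  have e : ∑ k, chr g k i j x * pd k F x = r * ∑ k, chr g k i j x * p.F k := by
    rw [Finset.mul_sum]
    refine Finset.sum_congr rfl fun k _ => ?_
    rw [h.pF]
    ring
  unfold hess
  rw [e, h.chr_F', h.pFF]
  ring

/-- **Null expansion of the boundary.** -/
theorem theta {K : Field n} {a : Fin n → ℝ}
    (hK : ∀ i j, K x i j = (pd i (pd j f) x - p.v * p.S * L i j +
      (a i * p.F j + p.F i * a j)) / p.s) :
    thetaPlus g K F x = p.S / p.s * ((p.c / p.S ^ 2 - p.v) * ∑ i, L i i +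
      2 / p.S * p.ct (fun i j => pd i (pd j f) x)) := by
  have hB : p.ct (fun i j => L i j) = ∑ i, L i i :=
    p.ct_trace h.Ls h.eik
  have hH : p.ct (hess g F x) = r * ((1 - p.v * (p.S ^ 2 / p.s ^ 2)) *
      (p.ct (fun i j => pd i (pd j f) x) + ∑ i, L i i) +
      (p.S - p.c) / p.s ^ 2 * p.ct (fun i j => pd i (pd j f) x)) := by
    have e : hess g F x = fun i j => (r * ((1 - p.v * (p.S ^ 2 / p.s ^ 2)) *
        (pd i (pd j f) x + L i j) + ((p.S - p.c) / p.s ^ 2) * pd i (pd j f) x) +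
        (b i - r * ((p.S ^ 2 / p.s ^ 2) / 2 * vk i)) * p.F j) +
        p.F i * (b j - r * ((p.S ^ 2 / p.s ^ 2) / 2 * vk j) +
        r * (((∑ l, (p.u l + p.S / p.s ^ 2 * p.m l) * vk l) / 2 -
          ∑ l, (p.u l + p.S / p.s ^ 2 * p.m l) * γ l) * p.F j)) := by
      funext i j
      exact h.hess_eq i j
    rw [e, p.ct_add, p.ct_add, p.ct_mul, p.ct_add, p.ct_mul, p.ct_mul, p.ct_add, p.ct_right,
      p.ct_left, hB]
    ring
  have hKK : p.ct (K x) = (p.ct (fun i j => pd i (pd j f) x) -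
      p.v * p.S * ∑ i, L i i) / p.s := by
    have e : K x = fun i j => 1 / p.s * ((pd i (pd j f) x - p.v * p.S * L i j) +
        (a i * p.F j + p.F i * a j)) := by
      funext i j
      rw [hK]
      ring
    rw [e, p.ct_mul, p.ct_add, p.ct_sub, p.ct_mul, p.ct_add, p.ct_right, p.ct_left, hB]
    ring
  unfold thetaPlus
  rw [h.trS_eq, h.trS_eq, h.covNorm_eq, hH, hKK]
  have hs0 : p.s ≠ 0 := p.s0.ne'
  have hS0 : p.S ≠ 0 := p.S0.ne'
  have hr0 : r ≠ 0 := h.r0.ne'
  generalize p.ct (fun i j => pd i (pd j f) x) = A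
  generalize ∑ i, L i i = M
  field_simp
  linear_combination (A + M) * p.hs

end JetW

end Vale.Agent.P366.H375
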