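import Vale.Agent.P366.H375.N.X2g

/-! The data induced on a hypersurface `t = f(y)` of a metric `η + V l ⊗ l` with a covector field
`l` which is null at the point. -/

open MeasureTheory Metric Filter Topology Set
open scoped ContDiff ENNReal

noncomputable section
namespace Vale.Agent.P366.KSN.W

open Vale.Agent.P366 (E)
open Vale.Agent.P366.H375 (dl HP)
open Vale.Agent.P366.KSN.X1 (sgn sgn0 sgns)
open Vale.Agent.P366.KSN.X2 (cot cot_eq)
open Vale.Agent.P366.Kerr (pt sp indG indK lapse tng con)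

section Gen

variable {m : ℕ} {e : Fin m → ℝ} {g : Stmt.Field m} {l : Fin m → E m → ℝ} {V : E m → ℝ} {x : E m}

/-- The inverse metric. -/
lemma up_l (he : ∀ a, e a * e a = 1)
    (hg : ∀ a b, g x a b = (if a = b then e a else 0) + V x * (l a x * l b x))
    (hn : ∑ a, e a * (l a x * l a x) = 0) (a b : Fin m) :
    Stmt.up g a b x = (if a = b then e a else 0) - V x * ((e a * l a x) * (e b * l b x)) := by
  set N : Matrix (Fin m) (Fin m) ℝ := Matrix.of fun a b =>
    (if a = b then e a else 0) - V x * ((e a * l a x) * (e b * l b x)) with hN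
  have h1 : Stmt.mat g x * N = 1 := by
    ext a c
    rw [Matrix.mul_apply, Matrix.one_apply]
    have e1 : ∀ b, Stmt.mat g x a b * N b c = (if a = b then e a * N a c else 0) +
        V x * l a x * (l b x * N b c) := by
      intro b
      show g x a b * _ = _
      rw [hg]
      split_ifs with hab
      · subst hab; ring
      · ring
    simp only [e1, Finset.sum_add_distrib, Finset.sum_ite_eq, Finset.mem_univ, if_true,
      ← Finset.mul_sum]
    have e2 : ∑ b, l b x * N b c = e c * l c x := by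
      have e3 : ∀ b, l b x * N b c = (if b = c then e c * l c x else 0) -
          V x * (e c * l c x) * (e b * (l b x * l b x)) := by
        intro b
        show l b x * ((if b = c then e b else 0) - V x * ((e b * l b x) * (e c * l c x))) = _
        split_ifs with hbc
        · subst hbc; ring
        · ring
      simp only [e3, Finset.sum_sub_distrib, Finset.sum_ite_eq', Finset.mem_univ, if_true,
        ← Finset.mul_sum, hn]
      ring
    rw [e2]
    show e a * ((if a = c then e a else 0) - V x * ((e a * l a x) * (e c * l c x))) + _ = _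
    have ha := he a
    split_ifs with hac
    · subst hac
      linear_combination (1 - V x * l a x * (e a * l a x)) * ha
    · linear_combination (- V x * l a x * (e c * l c x)) * ha
  unfold Stmt.up
  rw [Matrix.inv_eq_right_inv h1]
  rfl

lemma up_l_l (he : ∀ a, e a * e a = 1)
    (hg : ∀ a b, g x a b = (if a = b then e a else 0) + V x * (l a x * l b x))
    (hn : ∑ a, e a * (l a x * l a x) = 0) (a : Fin m) :
    ∑ b, Stmt.up g a b x * l b x = e a * l a x := by
  have h1 : ∀ b, Stmt.up g a b x * l b x = (if a = b then e a * l a x else 0) -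
      V x * (e a * l a x) * (e b * (l b x * l b x)) := by
    intro b
    rw [up_l he hg hn]
    split_ifs with hab
    · subst hab; ring
    · ring
  simp only [h1, Finset.sum_sub_distrib, Finset.sum_ite_eq, Finset.mem_univ, if_true,
    ← Finset.mul_sum, hn]
  ring

/-- The derivative of the metric. -/
lemma pd_l (hV : DifferentiableAt ℝ V x) (hl : ∀ a, DifferentiableAt ℝ (l a) x)
    (hg : ∀ᶠ z in 𝓝 x, ∀ a b, g z a b = (if a = b then e a else 0) + V z * (l a z * l b z))
    (c a b : Fin m) :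
    Stmt.pd c (fun y => g y a b) x = Stmt.pd c V x * (l a x * l b x) +
      V x * (Stmt.pd c (l a) x * l b x + l a x * Stmt.pd c (l b) x) := by
  have h1 : HP c (fun y => (if a = b then e a else 0) + V y * (l a y * l b y))
      (0 + (Stmt.pd c V x * (l a x * l b x) +
        V x * (Stmt.pd c (l a) x * l b x + l a x * Stmt.pd c (l b) x))) x :=
    (HP.const c _ x).add ((HP.of_diff hV).mul ((HP.of_diff (hl a)).mul (HP.of_diff (hl b))))
  have h2 := (h1.congr (hg.mono fun z hz => hz a b)).pd
  rw [h2, zero_add]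

/-- The Christoffel symbols on the vectors `X` with `l(X) = 0`. -/
lemma chr_l (he : ∀ a, e a * e a = 1) (hV : DifferentiableAt ℝ V x)
    (hl : ∀ a, DifferentiableAt ℝ (l a) x)
    (hg : ∀ᶠ z in 𝓝 x, ∀ a b, g z a b = (if a = b then e a else 0) + V z * (l a z * l b z))
    (hn : ∑ a, e a * (l a x * l a x) = 0) {X : Fin m → ℝ} (hX : ∑ a, l a x * X a = 0)
    (a : Fin m) :
    ∑ b, ∑ c, Stmt.chr g a b c x * X b * X c =
      V x * (e a * l a x) * ∑ b, ∑ c, Stmt.pd b (l c) x * X b * X c := by
  obtain ⟨N, hN⟩ : ∃ N, N = ∑ b, ∑ c, Stmt.pd b (l c) x * X b * X c := ⟨_, rfl⟩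
  obtain ⟨W, hW⟩ : ∃ W, W = ∑ b, Stmt.pd b V x * X b := ⟨_, rfl⟩
  have hg0 := hg.self_of_nhds
  have q1 : ∀ d, ∑ b, ∑ c, Stmt.pd b (fun y => g y c d) x * X b * X c = V x * l d x * N := by
    intro d
    obtain ⟨P, hP⟩ : ∃ P, P = ∑ b, Stmt.pd b (l d) x * X b := ⟨_, rfl⟩
    have e1 : ∀ b, ∑ c, Stmt.pd b (fun y => g y c d) x * X b * X c =
        Stmt.pd b V x * X b * l d x * (∑ c, l c x * X c) +
        V x * l d x * (∑ c, Stmt.pd b (l c) x * X b * X c) +
        V x * (Stmt.pd b (l d) x * X b) * (∑ c, l c x * X c) := by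
      intro b
      simp only [pd_l hV hl hg, Finset.mul_sum, ← Finset.sum_add_distrib]
      exact Finset.sum_congr rfl fun c _ => by ring
    simp only [e1, hX, mul_zero, zero_add, add_zero, ← Finset.mul_sum, ← hN]
  have q2 : ∀ d, ∑ b, ∑ c, Stmt.pd c (fun y => g y b d) x * X b * X c = V x * l d x * N := by
    intro d
    rw [← q1 d, Finset.sum_comm]
    exact Finset.sum_congr rfl fun b _ => Finset.sum_congr rfl fun c _ => by ring
  have q3 : ∀ d, ∑ b, ∑ c, Stmt.pd d (fun y => g y b c) x * X b * X c = 0 := by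
    intro d
    obtain ⟨P, hP⟩ : ∃ P, P = ∑ c, Stmt.pd d (l c) x * X c := ⟨_, rfl⟩
    have e1 : ∀ b, ∑ c, Stmt.pd d (fun y => g y b c) x * X b * X c =
        (Stmt.pd d V x * (l b x * X b) + V x * (Stmt.pd d (l b) x * X b)) * (∑ c, l c x * X c) +
        V x * P * (l b x * X b) := by
      intro b
      rw [hP]
      simp only [pd_l hV hl hg, Finset.mul_sum, Finset.sum_mul, ← Finset.sum_add_distrib]
      exact Finset.sum_congr rfl fun c _ => by ring
    simp only [e1, hX, mul_zero, zero_add, ← Finset.mul_sum]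
  have h1 : ∑ b, ∑ c, Stmt.chr g a b c x * X b * X c = ∑ d, Stmt.up g a d x *
      (((∑ b, ∑ c, Stmt.pd b (fun y => g y c d) x * X b * X c) +
        (∑ b, ∑ c, Stmt.pd c (fun y => g y b d) x * X b * X c) -
        ∑ b, ∑ c, Stmt.pd d (fun y => g y b c) x * X b * X c) / 2) := by
    have e1 : ∀ b c, Stmt.chr g a b c x * X b * X c = ∑ d, Stmt.up g a d x *
        ((Stmt.pd b (fun y => g y c d) x * X b * X c + Stmt.pd c (fun y => g y b d) x * X b * X c -
          Stmt.pd d (fun y => g y b c) x * X b * X c) / 2) := by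
      intro b c
      unfold Stmt.chr
      rw [div_mul_eq_mul_div, div_mul_eq_mul_div, Finset.sum_mul, Finset.sum_mul, Finset.sum_div]
      exact Finset.sum_congr rfl fun d _ => by ring
    simp only [e1]
    rw [Finset.sum_congr rfl fun b _ => Finset.sum_comm, Finset.sum_comm]
    refine Finset.sum_congr rfl fun d _ => ?_
    simp only [← Finset.mul_sum, ← Finset.sum_div, Finset.sum_sub_distrib, Finset.sum_add_distrib]
  rw [h1]
  simp only [q1, q2, q3]
  have h2 : ∀ d, Stmt.up g a d x * ((V x * l d x * N + V x * l d x * N - 0) / 2) =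
      V x * N * (Stmt.up g a d x * l d x) := fun d => by ring
  simp only [h2, ← Finset.mul_sum, up_l_l he hg0 hn, ← hN]
  ring

end Gen

variable {n : ℕ} {G : Stmt.Field (n + 1)} {l : Fin (n + 1) → E (n + 1) → ℝ}
  {V : E (n + 1) → ℝ} {f : E n → ℝ} {y : E n}

/-- `l` at the point of the slice -/
def gl (l : Fin (n + 1) → E (n + 1) → ℝ) (f : E n → ℝ) (y : E n) (a : Fin (n + 1)) : ℝ :=
  l a (pt (f y) y)

/-- the pull back of `l` to the slice -/
def Li (l : Fin (n + 1) → E (n + 1) → ℝ) (f : E n → ℝ) (y : E n) (i : Fin n) : ℝ :=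
  l 0 (pt (f y) y) * Stmt.pd i f y + l i.succ (pt (f y) y)

/-- `l_t + ⟨∇f, l⟩` -/
def Sl (l : Fin (n + 1) → E (n + 1) → ℝ) (f : E n → ℝ) (y : E n) : ℝ :=
  l 0 (pt (f y) y) + ∑ i : Fin n, Stmt.pd i f y * l i.succ (pt (f y) y)

/-- the derivative of the function `h` of spacetime in the direction `∂_i` of the slice -/
def dsl (h : E (n + 1) → ℝ) (f : E n → ℝ) (y : E n) (i : Fin n) : ℝ :=
  Stmt.pd 0 h (pt (f y) y) * Stmt.pd i f y + Stmt.pd i.succ h (pt (f y) y)

/-- the derivative of `l` on the coordinate vector fields of the slice -/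
def Nl (l : Fin (n + 1) → E (n + 1) → ℝ) (f : E n → ℝ) (y : E n) (i j : Fin n) : ℝ :=
  dsl (l 0) f y i * Stmt.pd j f y + dsl (l j.succ) f y i

lemma sgn_mul_self (a : Fin (n + 1)) : sgn a * sgn a = 1 := by
  unfold sgn
  split_ifs <;> norm_num

/-- closed form of the induced metric -/
theorem indG_l (hG : ∀ a b, G (pt (f y) y) a b =
      (if a = b then sgn a else 0) + V (pt (f y) y) * (l a (pt (f y) y) * l b (pt (f y) y)))
    (i j : Fin n) :
    indG G f y i j = dl i j - Stmt.pd i f y * Stmt.pd j f y +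
      V (pt (f y) y) * Li l f y i * Li l f y j := by
  have hw : ∀ i : Fin n, ∑ a, gl l f y a * tng f i y a = Li l f y i := fun i => cot_eq f y _ i
  have he : ∑ a, ∑ b, (if a = b then sgn a else 0) * tng f i y a * tng f j y b =
      dl i j - Stmt.pd i f y * Stmt.pd j f y := by
    have h1 : ∀ a : Fin (n + 1), ∑ b, (if a = b then sgn a else 0) *
        tng f i y a * tng f j y b = sgn a * tng f i y a * tng f j y a := by
      intro a
      rw [Finset.sum_eq_single a]
      · simp
      · intro b _ hb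
        simp [hb.symm]
      · simp
    simp only [h1]
    rw [Fin.sum_univ_succ]
    simp only [tng, Fin.cons_zero, Fin.cons_succ, sgn0, sgns]
    have h2 : ∑ k : Fin n, (1 : ℝ) * Pi.single (M := fun _ => ℝ) i 1 k *
        Pi.single (M := fun _ => ℝ) j 1 k = dl i j := by
      rw [Finset.sum_eq_single j]
      · simp [dl, Pi.single_apply, eq_comm]
      · intro b _ hb
        simp [Pi.single_apply, hb]
      · simp
    rw [h2]
    ring
  unfold indG
  rw [← he, ← hw i, ← hw j]
  have e1 : V (pt (f y) y) * (∑ a, gl l f y a * tng f i y a) *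
      (∑ b, gl l f y b * tng f j y b) =
      ∑ a, ∑ b, V (pt (f y) y) * gl l f y a * gl l f y b * tng f i y a * tng f j y b := by
    simp only [Finset.mul_sum, Finset.sum_mul]
    rw [Finset.sum_comm]
    exact Finset.sum_congr rfl fun a _ => Finset.sum_congr rfl fun b _ => by ring
  rw [e1, ← Finset.sum_add_distrib]
  refine Finset.sum_congr rfl fun a _ => ?_
  rw [← Finset.sum_add_distrib]
  refine Finset.sum_congr rfl fun b _ => ?_
  rw [hG]
  unfold gl
  ring

lemma k_con (l : Fin (n + 1) → E (n + 1) → ℝ) (f : E n → ℝ) (y : E n) :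
    ∑ a, sgn a * l a (pt (f y) y) * con f y a = - Sl l f y := by
  rw [Fin.sum_univ_succ]
  simp only [con, Fin.cons_zero, Fin.cons_succ, sgn0, sgns, one_mul, mul_neg,
    Finset.sum_neg_distrib]
  unfold Sl
  have : ∑ i : Fin n, l i.succ (pt (f y) y) * Stmt.pd i f y =
      ∑ i : Fin n, Stmt.pd i f y * l i.succ (pt (f y) y) :=
    Finset.sum_congr rfl fun i _ => mul_comm _ _
  rw [this]
  ring

lemma con_con (f : E n → ℝ) (y : E n) :
    ∑ a, sgn a * con f y a * con f y a = -1 + ∑ i, Stmt.pd i f y * Stmt.pd i f y := by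
  rw [Fin.sum_univ_succ]
  simp only [con, Fin.cons_zero, Fin.cons_succ, sgn0, sgns, one_mul, mul_neg, neg_mul, neg_neg,
    mul_one]

/-- closed form of the lapse -/
theorem lapse_l (hG : ∀ a b, G (pt (f y) y) a b =
      (if a = b then sgn a else 0) + V (pt (f y) y) * (l a (pt (f y) y) * l b (pt (f y) y)))
    (hn : ∑ a, sgn a * (l a (pt (f y) y) * l a (pt (f y) y)) = 0) :
    lapse G f y = 1 / √(1 - ∑ i, Stmt.pd i f y * Stmt.pd i f y +
      V (pt (f y) y) * Sl l f y ^ 2) := by
  unfold lapse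
  congr 2
  have e : ∀ a, ∑ b, Stmt.up G a b (pt (f y) y) * con f y a * con f y b =
      sgn a * con f y a * con f y a -
        V (pt (f y) y) * (∑ b, sgn b * l b (pt (f y) y) * con f y b) *
        (sgn a * l a (pt (f y) y) * con f y a) := by
    intro a
    simp only [up_l sgn_mul_self hG hn, sub_mul, Finset.sum_sub_distrib, ite_mul, zero_mul,
      Finset.sum_ite_eq, Finset.mem_univ, if_true]
    congr 1
    rw [Finset.mul_sum, Finset.sum_mul]
    exact Finset.sum_congr rfl fun b _ => by ring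
  simp only [e, Finset.sum_sub_distrib, ← Finset.mul_sum]
  rw [k_con, con_con]
  ring

/-- The second fundamental form on the vectors `X` with `l(X) = 0`. -/
theorem indK_l (hV : DifferentiableAt ℝ V (pt (f y) y))
    (hl : ∀ a, DifferentiableAt ℝ (l a) (pt (f y) y))
    (hG : ∀ᶠ z in 𝓝 (pt (f y) y), ∀ a b, G z a b =
      (if a = b then sgn a else 0) + V z * (l a z * l b z))
    (hn : ∑ a, sgn a * (l a (pt (f y) y) * l a (pt (f y) y)) = 0)
    {X : Fin n → ℝ} (hX : ∑ i, Li l f y i * X i = 0) :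
    ∑ i, ∑ j, indK G f y i j * X i * X j = lapse G f y *
      ((∑ i, ∑ j, Stmt.pd i (Stmt.pd j f) y * X i * X j) -
        V (pt (f y) y) * Sl l f y * ∑ i, ∑ j, Nl l f y i j * X i * X j) := by
  obtain ⟨Z, hZ⟩ : ∃ Z : Fin (n + 1) → ℝ, Z = fun a => ∑ i, X i * tng f i y a := ⟨_, rfl⟩
  have hlZ : ∀ h : Fin (n + 1) → ℝ, ∑ a, h a * Z a = ∑ i, cot f y h i * X i := by
    intro h
    have e1 : ∀ i, cot f y h i * X i = ∑ a, h a * (X i * tng f i y a) := by
      intro i
      rw [← cot_eq, Finset.sum_mul]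
      exact Finset.sum_congr rfl fun a _ => by ring
    simp only [e1, hZ, Finset.mul_sum]
    rw [Finset.sum_comm]
  have hZ0 : ∑ a, l a (pt (f y) y) * Z a = 0 := by
    rw [hlZ]
    exact hX
  have h1 : ∀ i j, indK G f y i j * X i * X j = lapse G f y *
      (Stmt.pd i (Stmt.pd j f) y * X i * X j) + lapse G f y * ∑ a, con f y a *
        ∑ b, ∑ c, Stmt.chr G a b c (pt (f y) y) * (X i * tng f i y b) * (X j * tng f j y c) := by
    intro i j
    unfold indK
    have e2 : ∀ a, ∑ b, ∑ c, Stmt.chr G a b c (pt (f y) y) * (X i * tng f i y b) *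
        (X j * tng f j y c) = (∑ b, ∑ c, Stmt.chr G a b c (pt (f y) y) * tng f i y b *
        tng f j y c) * (X i * X j) := by
      intro a
      rw [Finset.sum_mul]
      refine Finset.sum_congr rfl fun b _ => ?_
      rw [Finset.sum_mul]
      exact Finset.sum_congr rfl fun c _ => by ring
    have e3 : ∑ a, con f y a * ∑ b, ∑ c, Stmt.chr G a b c (pt (f y) y) * (X i * tng f i y b) *
        (X j * tng f j y c) = (∑ a, con f y a * ∑ b, ∑ c, Stmt.chr G a b c (pt (f y) y) *
        tng f i y b * tng f j y c) * (X i * X j) := by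
      simp only [e2]
      rw [Finset.sum_mul]
      exact Finset.sum_congr rfl fun a _ => by ring
    rw [e3]
    ring
  have h2 : ∑ i, ∑ j, ∑ a, con f y a * ∑ b, ∑ c, Stmt.chr G a b c (pt (f y) y) *
      (X i * tng f i y b) * (X j * tng f j y c) =
      ∑ a, con f y a * ∑ b, ∑ c, Stmt.chr G a b c (pt (f y) y) * Z b * Z c := by
    have e1 : ∀ a b c, Stmt.chr G a b c (pt (f y) y) * Z b * Z c = ∑ i, ∑ j,
        Stmt.chr G a b c (pt (f y) y) * (X i * tng f i y b) * (X j * tng f j y c) := by
      intro a b c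
      rw [hZ]
      simp only [Finset.mul_sum, Finset.sum_mul]
      rw [Finset.sum_comm]
    simp only [e1, Finset.mul_sum]
    rw [Finset.sum_congr rfl fun i _ => Finset.sum_comm, Finset.sum_comm]
    refine Finset.sum_congr rfl fun a _ => ?_
    rw [Finset.sum_congr rfl fun i _ => Finset.sum_comm, Finset.sum_comm]
    refine Finset.sum_congr rfl fun b _ => ?_
    rw [Finset.sum_congr rfl fun i _ => Finset.sum_comm, Finset.sum_comm]
  have h3 : ∀ a, ∑ b, ∑ c, Stmt.chr G a b c (pt (f y) y) * Z b * Z c =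
      V (pt (f y) y) * (sgn a * l a (pt (f y) y)) *
        ∑ b, ∑ c, Stmt.pd b (l c) (pt (f y) y) * Z b * Z c := fun a =>
    chr_l sgn_mul_self hV hl hG hn hZ0 a
  have h4 : ∑ b, ∑ c, Stmt.pd b (l c) (pt (f y) y) * Z b * Z c =
      ∑ i, ∑ j, Nl l f y i j * X i * X j := by
    have e1 : ∀ c, ∑ b, Stmt.pd b (l c) (pt (f y) y) * Z b = ∑ i, dsl (l c) f y i * X i :=
      fun c => hlZ _
    have e2 : ∑ b, ∑ c, Stmt.pd b (l c) (pt (f y) y) * Z b * Z c =
        ∑ c, (∑ i, dsl (l c) f y i * X i) * Z c := by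
      rw [Finset.sum_comm]
      refine Finset.sum_congr rfl fun c _ => ?_
      rw [← e1, Finset.sum_mul]
    rw [e2, hlZ (fun c => ∑ i, dsl (l c) f y i * X i)]
    unfold cot Nl
    rw [Finset.sum_comm]
    refine Finset.sum_congr rfl fun j _ => ?_
    rw [add_mul, Finset.sum_mul, Finset.sum_mul, Finset.sum_mul, ← Finset.sum_add_distrib]
    exact Finset.sum_congr rfl fun i _ => by ring
  simp only [h1, Finset.sum_add_distrib, ← Finset.mul_sum]
  rw [h2]
  simp only [h3, h4]
  have h5 : ∀ a, con f y a * (V (pt (f y) y) * (sgn a * l a (pt (f y) y)) *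
      ∑ i, ∑ j, Nl l f y i j * X i * X j) = V (pt (f y) y) *
      (∑ i, ∑ j, Nl l f y i j * X i * X j) * (sgn a * l a (pt (f y) y) * con f y a) :=
    fun a => by ring
  simp only [h5, ← Finset.mul_sum]
  rw [k_con]
  ring

end Vale.Agent.P366.KSN.W
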