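import Vale.Agent.P366.H375.W.W3
import Vale.Agent.P366.H208.N.X3c

/-! The boundary surface: tangent vectors, functions vanishing on it, the covector field `l`. -/

open MeasureTheory Metric Filter Topology Set
open scoped ContDiff ENNReal

noncomputable section
namespace Vale.Agent.P366.KSN.W

open Vale.Agent.P366 (pd E)
open Vale.Agent.P366.H353.N
open Vale.Agent.P366.H353.N.X3

variable {n : ℕ} {H U : E n → ℝ} {T : Ten n} {dd f F : E n → ℝ} {x : E n}

/-- the derivative of the boundary point -/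
def Mm (H U : E n → ℝ) (x : E n) (k i : Fin n) : ℝ := Wu H U x k i + x i * pd k U x

/-- the Hessian of `λ` -/
def LL (T : Ten n) (dd : E n → ℝ) (x : E n) (i j : Fin n) : ℝ := T.A x i j / dd x

/-- the conormal of the boundary in the slice -/
def Av (H U f : E n → ℝ) (x : E n) (i : Fin n) : ℝ := Fv H U f i x + x i

section
variable (B : BdN H U T dd f)
include B

omit B in
lemma LL_symm (i j : Fin n) : LL T dd x i j = LL T dd x j i := by
  unfold LL
  rw [T.symA]

omit B in
lemma LL_x (hx : ‖x‖ = 1) (i : Fin n) : ∑ j, LL T dd x i j * x j = 0 := by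
  have h := T.tanA x (ne_zero_of_one hx) i
  have e : ∀ j, LL T dd x i j * x j = (T.A x i j * x j) / dd x := fun j => by unfold LL; ring
  simp only [e, ← Finset.sum_div, h, zero_div]

omit B in
lemma LL_x' (hx : ‖x‖ = 1) (j : Fin n) : ∑ i, x i * LL T dd x i j = 0 := by
  rw [← LL_x hx j]
  exact Finset.sum_congr rfl fun i _ => by rw [LL_symm]; ring

lemma LL_W (hx : ‖x‖ = 1) (i j : Fin n) : ∑ k, LL T dd x i k * Wu H U x k j = pr x i j := by
  have h := B.AW x hx i j
  have e : ∀ k, LL T dd x i k * Wu H U x k j = (T.A x i k * Wu H U x k j) / dd x := fun k => by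
    unfold LL; ring
  simp only [e, ← Finset.sum_div, h]
  rw [mul_div_assoc, mul_div_cancel₀ _ (B.dpos x hx).ne']

omit B in
lemma tt_one (hx : ‖x‖ = 1) : ∑ i, Av H U f x i * x i = tt H U f x := by
  unfold Av tt
  simp only [add_mul, Finset.sum_add_distrib, BdN.sum_xx hx, nv_one hx]
  rw [add_comm]
  congr 1
  exact Finset.sum_congr rfl fun i _ => mul_comm _ _

lemma M_x (hx : ‖x‖ = 1) (k : Fin n) : ∑ i, Mm H U x k i * x i = pd k U x := by
  have e : ∀ i, Mm H U x k i * x i = Wu H U x k i * x i + pd k U x * (x i * x i) := fun i => by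
    unfold Mm; ring
  simp only [e, Finset.sum_add_distrib, ← Finset.mul_sum, B.W_x hx, BdN.sum_xx hx]
  ring

lemma M_a (hx : ‖x‖ = 1) (k : Fin n) : ∑ i, Mm H U x k i * Av H U f x i = 0 := by
  have e : ∀ i, Mm H U x k i * Av H U f x i = Mm H U x k i * Fv H U f i x +
      Mm H U x k i * x i := fun i => by unfold Av; ring
  have h := B.first hx k
  have h2 : ∑ i, Mm H U x k i * Fv H U f i x = - pd k U x := h
  simp only [e, Finset.sum_add_distrib, h2, M_x B hx]
  ring

/-- the vectors with `a(X) = 0` are tangent vectors -/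
lemma span (hx : ‖x‖ = 1) {X : Fin n → ℝ} (hX : ∑ i, Av H U f x i * X i = 0) (i : Fin n) :
    ∑ k, (∑ j, LL T dd x k j * X j) * Mm H U x k i = X i := by
  obtain ⟨v, hv⟩ : ∃ v : Fin n → ℝ, v = fun k => ∑ j, LL T dd x k j * X j := ⟨_, rfl⟩
  have h1 : ∀ i, ∑ k, v k * Wu H U x k i = X i - x i * ∑ j, x j * X j := by
    intro i
    have e : ∑ k, v k * Wu H U x k i = ∑ j, (∑ k, LL T dd x j k * Wu H U x k i) * X j := by
      rw [hv]
      simp only [Finset.sum_mul]
      rw [Finset.sum_comm]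
      refine Finset.sum_congr rfl fun j _ => Finset.sum_congr rfl fun k _ => ?_
      rw [LL_symm k j]
      ring
    rw [e]
    simp only [LL_W B hx]
    rw [← pr_mul i X]
    exact Finset.sum_congr rfl fun j _ => by rw [pr_comm]
  obtain ⟨q, hq⟩ : ∃ q, q = ∑ k, v k * pd k U x := ⟨_, rfl⟩
  have h2 : ∀ i, ∑ k, v k * Mm H U x k i = X i - x i * (∑ j, x j * X j) + x i * q := by
    intro i
    have e : ∀ k, v k * Mm H U x k i = v k * Wu H U x k i + x i * (v k * pd k U x) := fun k => by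
      unfold Mm; ring
    simp only [e, Finset.sum_add_distrib, ← Finset.mul_sum, ← hq, h1]
  have h3 : ∑ i, (∑ k, v k * Mm H U x k i) * Av H U f x i = 0 := by
    simp only [Finset.sum_mul]
    rw [Finset.sum_comm]
    refine Finset.sum_eq_zero fun k _ => ?_
    have e : ∑ i, v k * Mm H U x k i * Av H U f x i =
        v k * ∑ i, Mm H U x k i * Av H U f x i := by
      rw [Finset.mul_sum]
      exact Finset.sum_congr rfl fun i _ => by ring
    rw [e, M_a B hx, mul_zero]
  have h4 : ∑ i, (∑ k, v k * Mm H U x k i) * Av H U f x i =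
      ∑ i, Av H U f x i * X i + (q - ∑ j, x j * X j) * ∑ i, Av H U f x i * x i := by
    simp only [h2]
    rw [Finset.mul_sum, ← Finset.sum_add_distrib]
    exact Finset.sum_congr rfl fun i _ => by ring
  rw [h3, hX, tt_one hx, zero_add] at h4
  have h5 := (mul_eq_zero.1 h4.symm).resolve_right (B.tt_pos (ne_zero_of_one hx)).ne'
  have h6 := h2 i
  rw [hv] at h6
  rw [h6]
  have : q = ∑ j, x j * X j := by linarith
  rw [this]
  ring

/-- covectors which vanish on the tangent vectors -/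
lemma lin (hx : ‖x‖ = 1) {ψ : Fin n → ℝ} (h : ∀ k, ∑ i, Mm H U x k i * ψ i = 0) (i : Fin n) :
    ψ i * tt H U f x = (∑ j, x j * ψ j) * Av H U f x i := by
  obtain ⟨X, hX⟩ : ∃ X : Fin n → ℝ, X = fun j => (if j = i then tt H U f x else 0) -
      Av H U f x i * x j := ⟨_, rfl⟩
  have h1 : ∑ j, Av H U f x j * X j = 0 := by
    have e : ∀ j, Av H U f x j * X j = (if j = i then Av H U f x i * tt H U f x else 0) -
        Av H U f x i * (Av H U f x j * x j) := by
      intro j
      rw [hX]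
      dsimp only
      split_ifs with hj
      · subst hj; ring
      · ring
    simp only [e, Finset.sum_sub_distrib, ← Finset.mul_sum, tt_one hx, Finset.sum_ite_eq',
      Finset.mem_univ, if_true]
    ring
  have h2 : ∑ j, ψ j * X j = 0 := by
    have e : ∀ j, ψ j * X j = ∑ k, (∑ m, LL T dd x k m * X m) * (Mm H U x k j * ψ j) := by
      intro j
      conv_lhs => rw [← span B hx h1 j, Finset.mul_sum]
      exact Finset.sum_congr rfl fun k _ => by ring
    simp only [e]
    rw [Finset.sum_comm]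
    refine Finset.sum_eq_zero fun k _ => ?_
    rw [← Finset.mul_sum, h k, mul_zero]
  have h3 : ∑ j, ψ j * X j = ψ i * tt H U f x - (∑ j, x j * ψ j) * Av H U f x i := by
    have e : ∀ j, ψ j * X j = (if j = i then ψ i * tt H U f x else 0) -
        x j * ψ j * Av H U f x i := by
      intro j
      rw [hX]
      dsimp only
      split_ifs with hj
      · subst hj; ring
      · ring
    simp only [e, Finset.sum_sub_distrib, ← Finset.sum_mul, Finset.sum_ite_eq', Finset.mem_univ,
      if_true]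
  linarith

/-! ### functions on the boundary -/

lemma sm_cz {g : E n → ℝ} (hg : ∀ z, z ≠ 0 → ContDiffAt ℝ ∞ g (zz H U z)) :
    Sm fun z => g (zz H U z) := fun z hz => (hg z hz).comp z (B.zz_cd hz)

lemma pd_cz {g : E n → ℝ} (hx : ‖x‖ = 1) (hg : DifferentiableAt ℝ g (zz H U x)) (k : Fin n) :
    pd k (fun z => g (zz H U z)) x = ∑ i, Mm H U x k i * pd i g (zz H U x) := by
  rw [B.pd_comp_zz (ne_zero_of_one hx) hg k]
  exact Finset.sum_congr rfl fun i _ => by rw [B.pd_zz hx]; rfl

/-- first derivatives of a function vanishing on the boundary -/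
lemma grad_F (hF : ∀ z, z ≠ 0 → F (zz H U z) = 0)
    (hFs : ∀ z, z ≠ 0 → ContDiffAt ℝ ∞ F (zz H U z)) (hx : ‖x‖ = 1) (i : Fin n) :
    pd i F (zz H U x) * tt H U f x = (∑ j, x j * pd j F (zz H U x)) * Av H U f x i := by
  have h0 := ne_zero_of_one hx
  refine lin B hx (ψ := fun i => pd i F (zz H U x)) (fun k => ?_) i
  rw [← pd_cz B hx ((hFs x h0).differentiableAt (by simp)) k]
  have h1 : pd k (fun z => F (zz H U z)) x = pd k (fun _ => (0 : ℝ)) x :=
    pd_congr' (fun y hy => hF y hy) h0 k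
  rw [h1, Vale.Agent.P366.pd_const]

lemma grad_F' (hF : ∀ z, z ≠ 0 → F (zz H U z) = 0)
    (hFs : ∀ z, z ≠ 0 → ContDiffAt ℝ ∞ F (zz H U z)) {z : E n} (hz : z ≠ 0) (i : Fin n) :
    pd i F (zz H U z) * tt H U f z = (∑ j, nv j z * pd j F (zz H U z)) *
      (Fv H U f i z + nv i z) := by
  have hu := unit_of hz
  have h1 := grad_F B hF hFs hu i
  have hr := inv_pos.mpr (norm_pos_iff.mpr hz)
  rw [← B.zz_unit hz] at h1
  have h2 := B.hom_tt z hz _ hr
  have h3 := B.hom_Fv i z hz _ hr
  have h4 : ∀ j, (‖z‖⁻¹ • z) j = nv j z := fun j => by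
    simp only [PiLp.smul_apply, smul_eq_mul, nv]
    rw [div_eq_mul_inv, mul_comm]
  rw [zpow_zero, one_mul] at h2 h3
  unfold Av at h1
  rw [h2, h3] at h1
  simpa only [h4] using h1

omit B in
lemma sm_pd {g : E n → ℝ} {y : E n} (hg : ContDiffAt ℝ ∞ g y) (i : Fin n) :
    ContDiffAt ℝ ∞ (pd i g) y := by
  have h1 : ContDiffAt ℝ ∞ (fderiv ℝ g) y := hg.fderiv_right (by simp)
  exact h1.clm_apply contDiffAt_const

lemma sm_dc {g : E n → ℝ} (hg : ∀ z, z ≠ 0 → ContDiffAt ℝ ∞ g (zz H U z)) (i : Fin n) :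
    Sm fun z => pd i g (zz H U z) := sm_cz B fun z hz => sm_pd (hg z hz) i

/-- contraction of the derivative along the boundary with the tangent vector `X` -/
lemma ctr (hx : ‖x‖ = 1) {X : Fin n → ℝ} (hX : ∑ i, Av H U f x i * X i = 0)
    (φ : Fin n → ℝ) :
    ∑ k, (∑ j, LL T dd x k j * X j) * (∑ i, Mm H U x k i * φ i) = ∑ i, φ i * X i := by
  have e : ∀ i, φ i * X i = ∑ k, (∑ j, LL T dd x k j * X j) * (Mm H U x k i * φ i) := by
    intro i
    conv_lhs => rw [← span B hx hX i, Finset.mul_sum]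
    exact Finset.sum_congr rfl fun k _ => by ring
  simp only [e]
  rw [Finset.sum_comm]
  exact Finset.sum_congr rfl fun k _ => by rw [Finset.mul_sum]

omit B in
lemma ctr_pr (hx : ‖x‖ = 1) (X Y : Fin n → ℝ) :
    ∑ k, (∑ j, LL T dd x k j * X j) * (∑ i, pr x k i * Y i) =
      ∑ i, ∑ j, LL T dd x i j * X i * Y j := by
  have h1 : ∀ k, ∑ i, pr x k i * Y i = Y k - x k * ∑ j, x j * Y j := fun k => pr_mul k Y
  simp only [h1]
  have h2 : ∑ k, (∑ j, LL T dd x k j * X j) * x k = 0 := by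
    have e : ∀ k, (∑ j, LL T dd x k j * X j) * x k = ∑ j, x k * LL T dd x k j * X j := fun k => by
      rw [Finset.sum_mul]
      exact Finset.sum_congr rfl fun j _ => by ring
    simp only [e]
    rw [Finset.sum_comm]
    refine Finset.sum_eq_zero fun j _ => ?_
    rw [← Finset.sum_mul, LL_x' hx, zero_mul]
  have h3 : ∀ k, (∑ j, LL T dd x k j * X j) * (Y k - x k * ∑ j, x j * Y j) =
      (∑ j, LL T dd x k j * X j) * Y k - ((∑ j, LL T dd x k j * X j) * x k) * ∑ j, x j * Y j :=
    fun k => by ring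
  simp only [h3, Finset.sum_sub_distrib, ← Finset.sum_mul, h2, zero_mul, sub_zero]
  simp only [Finset.sum_mul]
  rw [Finset.sum_comm]
  exact Finset.sum_congr rfl fun i _ => Finset.sum_congr rfl fun j _ => by rw [LL_symm j i]

/-- second derivatives of a function vanishing on the boundary -/
lemma hess_F (hF : ∀ z, z ≠ 0 → F (zz H U z) = 0)
    (hFs : ∀ z, z ≠ 0 → ContDiffAt ℝ ∞ F (zz H U z)) (hx : ‖x‖ = 1) {X : Fin n → ℝ}
    (hX : ∑ i, Av H U f x i * X i = 0) :
    tt H U f x * (∑ i, ∑ j, hs F i j (zz H U x) * X i * X j) =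
      (∑ j, x j * pd j F (zz H U x)) * ((∑ i, ∑ j, hs f i j (zz H U x) * X i * X j) +
        ∑ i, ∑ j, LL T dd x i j * X i * X j) := by
  have h0 := ne_zero_of_one hx
  have hts : 0 < tt H U f x := B.tt_pos h0
  obtain ⟨ρ, hρ⟩ : ∃ ρ : E n → ℝ, ρ = fun z => ∑ j, nv j z * pd j F (zz H U z) := ⟨_, rfl⟩
  have sρ : Sm ρ := by
    rw [hρ]
    exact Sm.sum _ fun j => (sm_nv j).mul (sm_dc B hFs j)
  have hρx : ρ x = ∑ j, x j * pd j F (zz H U x) := by
    rw [hρ]
    simp only [nv_one hx]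
  -- the gradient of `F` on `X`
  have hFX : ∑ i, pd i F (zz H U x) * X i = 0 := by
    have e : tt H U f x * ∑ i, pd i F (zz H U x) * X i =
        (∑ j, x j * pd j F (zz H U x)) * ∑ i, Av H U f x i * X i := by
      rw [Finset.mul_sum, Finset.mul_sum]
      refine Finset.sum_congr rfl fun i _ => ?_
      have := grad_F B hF hFs hx i
      linear_combination X i * this
    rw [hX, mul_zero] at e
    exact (mul_eq_zero.1 e).resolve_left hts.ne'
  have key : ∀ i k, pd i F (zz H U x) * pd k (tt H U f) x +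
      (∑ l, Mm H U x k l * pd l (pd i F) (zz H U x)) * tt H U f x =
      ρ x * ((∑ l, Mm H U x k l * pd l (pd i f) (zz H U x)) + pr x k i) +
        pd k ρ x * Av H U f x i := by
    intro i k
    have h1 : pd k (fun z => pd i F (zz H U z) * tt H U f z) x =
        pd k (fun z => ρ z * (Fv H U f i z + nv i z)) x := by
      refine pd_congr' (fun z hz => ?_) h0 k
      rw [hρ]
      exact grad_F' B hF hFs hz i
    rw [pd_mul' (sm_dc B hFs i) B.sm_tt h0,
      pd_mul' sρ ((B.sm_Fv i).add (sm_nv i)) h0, pd_add' (B.sm_Fv i) (sm_nv i) h0,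
      pd_nv hx, nv_one hx, pd_cz B hx ((sm_pd (hFs x h0) i).differentiableAt (by simp))] at h1
    have h2 : pd k (Fv H U f i) x = ∑ l, Mm H U x k l * pd l (pd i f) (zz H U x) :=
      pd_cz B (g := pd i f) hx ((sm_pd (B.sm' h0) i).differentiableAt (by simp)) k
    rw [h2] at h1
    exact h1
  -- contraction
  obtain ⟨v, hv⟩ : ∃ v : Fin n → ℝ, v = fun k => ∑ j, LL T dd x k j * X j := ⟨_, rfl⟩
  have hc : ∀ φ : Fin n → ℝ, ∑ k, v k * (∑ i, Mm H U x k i * φ i) = ∑ i, φ i * X i := by
    rw [hv]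
    exact ctr B hx hX
  have hL : ∑ k, v k * (∑ i, pr x k i * X i) = ∑ i, ∑ j, LL T dd x i j * X i * X j := by
    rw [hv]
    exact ctr_pr hx X X
  have a1 : ∑ k, v k * ∑ i, X i * (∑ l, Mm H U x k l * pd l (pd i F) (zz H U x)) =
      ∑ i, ∑ j, hs F i j (zz H U x) * X i * X j := by
    have e : ∀ k, ∑ i, X i * (∑ l, Mm H U x k l * pd l (pd i F) (zz H U x)) =
        ∑ l, Mm H U x k l * ∑ i, pd l (pd i F) (zz H U x) * X i := by
      intro k
      simp only [Finset.mul_sum]
      rw [Finset.sum_comm]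
      exact Finset.sum_congr rfl fun i _ => Finset.sum_congr rfl fun j _ => by ring
    simp only [e]
    rw [hc]
    refine Finset.sum_congr rfl fun i _ => ?_
    rw [Finset.sum_mul]
    exact Finset.sum_congr rfl fun j _ => by unfold hs; ring
  have a2 : ∑ k, v k * ∑ i, X i * (∑ l, Mm H U x k l * pd l (pd i f) (zz H U x)) =
      ∑ i, ∑ j, hs f i j (zz H U x) * X i * X j := by
    have e : ∀ k, ∑ i, X i * (∑ l, Mm H U x k l * pd l (pd i f) (zz H U x)) =
        ∑ l, Mm H U x k l * ∑ i, pd l (pd i f) (zz H U x) * X i := by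
      intro k
      simp only [Finset.mul_sum]
      rw [Finset.sum_comm]
      exact Finset.sum_congr rfl fun i _ => Finset.sum_congr rfl fun j _ => by ring
    simp only [e]
    rw [hc]
    refine Finset.sum_congr rfl fun i _ => ?_
    rw [Finset.sum_mul]
    exact Finset.sum_congr rfl fun j _ => by unfold hs; ring
  have b1 : ∀ k, (∑ i, pd i F (zz H U x) * X i) * pd k (tt H U f) x +
      tt H U f x * (∑ i, X i * (∑ l, Mm H U x k l * pd l (pd i F) (zz H U x))) =
      ρ x * (∑ i, X i * (∑ l, Mm H U x k l * pd l (pd i f) (zz H U x)) +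
        ∑ i, pr x k i * X i) + pd k ρ x * ∑ i, Av H U f x i * X i := by
    intro k
    rw [Finset.sum_mul, Finset.mul_sum, ← Finset.sum_add_distrib, ← Finset.sum_add_distrib,
      Finset.mul_sum, Finset.mul_sum, ← Finset.sum_add_distrib]
    refine Finset.sum_congr rfl fun i _ => ?_
    linear_combination X i * key i k
  simp only [hFX, hX, zero_mul, mul_zero, zero_add, add_zero] at b1
  rw [← hρx, ← a1, ← a2, ← hL, ← Finset.sum_add_distrib, Finset.mul_sum, Finset.mul_sum]
  refine Finset.sum_congr rfl fun k _ => ?_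
  rw [← mul_add]
  have := b1 k
  linear_combination v k * this

/-- a covector field which is `h0 (dt + x)` on the boundary -/
lemma rel_l {h0 : E n → ℝ} {h : Fin n → E n → ℝ}
    (s0 : ∀ z, z ≠ 0 → ContDiffAt ℝ ∞ h0 (zz H U z))
    (sh : ∀ i z, z ≠ 0 → ContDiffAt ℝ ∞ (h i) (zz H U z))
    (e : ∀ z, z ≠ 0 → ∀ i, h i (zz H U z) = h0 (zz H U z) * nv i z) (hx : ‖x‖ = 1)
    {X Y : Fin n → ℝ} (hX : ∑ i, Av H U f x i * X i = 0) :
    ∑ i, ∑ j, pd i (h j) (zz H U x) * X i * Y j =
      (∑ i, pd i h0 (zz H U x) * X i) * (∑ j, x j * Y j) +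
        h0 (zz H U x) * ∑ i, ∑ j, LL T dd x i j * X i * Y j := by
  have hx0 := ne_zero_of_one hx
  have key : ∀ j k, ∑ l, Mm H U x k l * pd l (h j) (zz H U x) =
      h0 (zz H U x) * pr x k j + (∑ l, Mm H U x k l * pd l h0 (zz H U x)) * x j := by
    intro j k
    rw [← pd_cz B hx ((sh j x hx0).differentiableAt (by simp)) k,
      ← pd_cz B hx ((s0 x hx0).differentiableAt (by simp)) k,
      pd_congr' (fun z hz => e z hz j) hx0 k, pd_mul' (sm_cz B s0) (sm_nv j) hx0, pd_nv hx,
      nv_one hx]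
  obtain ⟨v, hv⟩ : ∃ v : Fin n → ℝ, v = fun k => ∑ j, LL T dd x k j * X j := ⟨_, rfl⟩
  have hc : ∀ φ : Fin n → ℝ, ∑ k, v k * (∑ i, Mm H U x k i * φ i) = ∑ i, φ i * X i := by
    rw [hv]
    exact ctr B hx hX
  have hL : ∑ k, v k * (∑ i, pr x k i * Y i) = ∑ i, ∑ j, LL T dd x i j * X i * Y j := by
    rw [hv]
    exact ctr_pr hx X Y
  have a1 : ∑ k, v k * ∑ j, (∑ l, Mm H U x k l * pd l (h j) (zz H U x)) * Y j =
      ∑ i, ∑ j, pd i (h j) (zz H U x) * X i * Y j := by
    have e1 : ∀ k, ∑ j, (∑ l, Mm H U x k l * pd l (h j) (zz H U x)) * Y j =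
        ∑ l, Mm H U x k l * ∑ j, pd l (h j) (zz H U x) * Y j := by
      intro k
      simp only [Finset.mul_sum, Finset.sum_mul]
      rw [Finset.sum_comm]
      exact Finset.sum_congr rfl fun i _ => Finset.sum_congr rfl fun j _ => by ring
    simp only [e1]
    rw [hc]
    refine Finset.sum_congr rfl fun i _ => ?_
    rw [Finset.sum_mul]
    exact Finset.sum_congr rfl fun j _ => by ring
  rw [← a1, ← hL, ← hc (fun i => pd i h0 (zz H U x)), Finset.sum_mul, Finset.mul_sum,
    ← Finset.sum_add_distrib]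
  refine Finset.sum_congr rfl fun k _ => ?_
  have e2 : ∑ j, (∑ l, Mm H U x k l * pd l (h j) (zz H U x)) * Y j =
      h0 (zz H U x) * (∑ j, pr x k j * Y j) +
        (∑ l, Mm H U x k l * pd l h0 (zz H U x)) * ∑ j, x j * Y j := by
    rw [Finset.mul_sum, Finset.mul_sum, ← Finset.sum_add_distrib]
    refine Finset.sum_congr rfl fun j _ => ?_
    rw [key j k]
    ring
  rw [e2]
  ring

end

end Vale.Agent.P366.KSN.W
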