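import Vale.Agent.P366.H375.W.W2
import Vale.Agent.P366.H375.W.W4
import Vale.Agent.P366.H296.L.Tau
import Vale.Agent.P366.H896.W.Gr
import Vale.Agent.P366.H208.L.Int

/-! The boundary of a Kerr-Schild exterior with a null geodesic covector field is weakly future
trapped: the pointwise inequality. -/

open MeasureTheory Metric Filter Topology Set
open scoped ContDiff ENNReal

noncomputable section
namespace Vale.Agent.P366.KSN.W

open Vale.Agent.P366 (pd E)
open Vale.Agent.P366.H353.N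
open Vale.Agent.P366.H353.N.X3
open Vale.Agent.P366.H375 (dl HP)
open Vale.Agent.P366.Kerr (NullCone Psi pt sp indG indK ksL IsKS IsGraph IsSliceL lapse)
open Vale.Agent.P366.KSL (bd_Y tau_pos_bdr)

variable {n : ℕ}

/-- a matrix which vanishes on a plane -/
lemma bil_plane {N : Fin n → Fin n → ℝ} {a z : Fin n → ℝ} {t : ℝ} (ht : t ≠ 0)
    (haz : ∑ i, a i * z i = t)
    (h : ∀ X Y : Fin n → ℝ, ∑ i, a i * X i = 0 → ∑ i, a i * Y i = 0 →
      ∑ i, ∑ j, N i j * X i * Y j = 0) :
    ∃ γ δ : Fin n → ℝ, ∀ i j, N i j = a i * γ j + δ i * a j := by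
  obtain ⟨q, hq⟩ : ∃ q, q = ∑ k, (∑ l, N k l * z l) * z k := ⟨_, rfl⟩
  refine ⟨fun j => (∑ k, N k j * z k) / t - a j * q / t ^ 2, fun i => (∑ l, N i l * z l) / t,
    fun i j => ?_⟩
  have hpl : ∀ i, ∑ k, a k * ((if k = i then t else 0) - a i * z k) = 0 := by
    intro i
    have e : ∀ k, a k * ((if k = i then t else 0) - a i * z k) =
        (if k = i then a i * t else 0) - a i * (a k * z k) := by
      intro k
      split_ifs with hk
      · subst hk; ring
      · ring
    simp only [e, Finset.sum_sub_distrib, ← Finset.mul_sum, haz, Finset.sum_ite_eq',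
      Finset.mem_univ, if_true]
    ring
  have hsel : ∀ (φ : Fin n → ℝ) (i : Fin n) (c : ℝ),
      ∑ k, φ k * ((if k = i then t else 0) - c * z k) = t * φ i - c * ∑ k, φ k * z k := by
    intro φ i c
    have e : ∀ k, φ k * ((if k = i then t else 0) - c * z k) =
        (if k = i then t * φ i else 0) - c * (φ k * z k) := by
      intro k
      split_ifs with hk
      · subst hk; ring
      · ring
    simp only [e, Finset.sum_sub_distrib, ← Finset.mul_sum, Finset.sum_ite_eq',
      Finset.mem_univ, if_true]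
  have h1 := h _ _ (hpl i) (hpl j)
  have h2 : ∀ k, ∑ l, N k l * ((if k = i then t else 0) - a i * z k) *
      ((if l = j then t else 0) - a j * z l) =
      (t * N k j - a j * ∑ l, N k l * z l) * ((if k = i then t else 0) - a i * z k) := by
    intro k
    rw [← hsel (fun l => N k l) j (a j), Finset.sum_mul]
    exact Finset.sum_congr rfl fun l _ => by ring
  simp only [h2] at h1
  rw [hsel (fun k => t * N k j - a j * ∑ l, N k l * z l) i (a i)] at h1
  have h3 : ∑ k, (t * N k j - a j * ∑ l, N k l * z l) * z k =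
      t * (∑ k, N k j * z k) - a j * q := by
    rw [hq, Finset.mul_sum, Finset.mul_sum, ← Finset.sum_sub_distrib]
    exact Finset.sum_congr rfl fun k _ => by ring
  rw [h3] at h1
  field_simp
  linear_combination h1

variable {C : NullCone n} {l : Fin (n + 1) → E (n + 1) → ℝ} {V : E (n + 1) → ℝ}
  {f : E n → ℝ} {D : Stmt.Exterior n} {T : Ten n} {x y z : E n}

lemma zz_Y (C : NullCone n) (hx : ‖x‖ = 1) : zz C.H C.U x = Y C.H x (C.U x) := by
  ext i
  rw [zz_apply, nv_one hx]
  rfl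

/-- the boundary data -/
theorem mkB [Fact (3 ≤ n)] (hS : IsSliceL C l V f D) (hA : T.A = C.toDat.A)
    (hb : T.b = C.toDat.b) : BdN C.H C.U T (fun x => dts C.H (C.U x) x) f where
  smH := smH C
  smU := smU C
  homH := homH C
  homU := homU C
  AW x hx i j := by
    rw [hA]
    have h := AW C.toDat hx i j
    rw [dt_one C.toDat hx] at h
    exact h
  AU x hx i := by
    rw [hA, hb]
    have h := AU C.toDat hx (by rw [dt_one C.toDat hx]; exact (dts_pos C hx le_rfl).ne') i
    rw [dt_one C.toDat hx] at h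
    exact h
  dpos x hx := dts_pos C hx le_rfl
  sm x hx := by
    rw [zz_Y C hx]
    exact hS.smf _ (KSL.mem_Y hS.dom hx le_rfl)
  bd x hx := by
    rw [zz_Y C hx]
    have := bd_Y (β := fun z => - C.U z) hS.bdr hx
    rw [this, U_smul C (ne_zero_of_one hx) (posU' C hx)]
  tp x hx := by
    rw [zz_Y C hx]
    exact tau_pos_bdr hS hx

section
variable [Fact (3 ≤ n)] (hS : IsSliceL C l V f D) (B : BdN C.H C.U T (fun x => dts C.H (C.U x) x) f)
include hS B

omit [Fact (3 ≤ n)] in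
lemma zF (hz : z ≠ 0) : D.F (zz C.H C.U z) = 0 := by
  have hu := unit_of hz
  rw [B.zz_unit hz, zz_Y C hu]
  exact bd_Y (β := fun _ => 0) hS.bdF hu

omit [Fact (3 ≤ n)] in
lemma zmem (hz : z ≠ 0) : 0 ≤ D.F (zz C.H C.U z) := (zF hS B hz).ge

omit [Fact (3 ≤ n)] in
lemma zl (hz : z ≠ 0) (i : Fin n) : l i.succ (pt (f (zz C.H C.U z)) (zz C.H C.U z)) =
    l 0 (pt (f (zz C.H C.U z)) (zz C.H C.U z)) * nv i z := by
  have hu := unit_of hz
  have hU := B.homU z hz _ (inv_pos.mpr (norm_pos_iff.mpr hz))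
  rw [zpow_zero, one_mul] at hU
  rw [B.bd' hz, ← hU, B.zz_unit hz, zz_Y C hu]
  obtain ⟨u, hud⟩ : ∃ u : E n, u = ‖z‖⁻¹ • z := ⟨_, rfl⟩
  have hn : nv i z = u i := by
    rw [hud]
    simp only [PiLp.smul_apply, smul_eq_mul, nv]
    rw [div_eq_mul_inv, mul_comm]
  rw [hn]
  rw [← hud] at hu ⊢
  have h0 := posU' C hu
  have hu0 := ne_zero_of_one hu
  have h := hS.nor (C.U u • u) (smul_ne_zero h0.ne' hu0)
    (by rw [norm_smul_unit hu h0.le, U_smul C hu0 h0]) i
  rw [U_smul C hu0 h0, Y_eq C hu h0, norm_smul_unit hu h0.le] at h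
  rw [h]
  have : (C.U u • u) i / C.U u = u i := by
    have : (C.U u • u) i = C.U u * u i := by simp
    rw [this]; field_simp
  rw [this]

omit [Fact (3 ≤ n)] hS B in
/-- derivative of a function of spacetime along the slice -/
lemma dsl_eq {h : E (n + 1) → ℝ} (hh : DifferentiableAt ℝ h (pt (f y) y))
    (hf : DifferentiableAt ℝ f y) (i : Fin n) :
    DifferentiableAt ℝ (fun z => h (pt (f z) z)) y ∧
      pd i (fun z => h (pt (f z) z)) y = dsl h f y i := by
  obtain ⟨h1, h2⟩ := Gr.dp_gr hh hf i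
  refine ⟨h1, ?_⟩
  rw [h2]
  unfold dsl
  rw [X2.stmt_pd hh, X2.stmt_pd hh, X2.stmt_pd hf]
  ring

omit [Fact (3 ≤ n)] in
/-- the derivative of `l` on the tangent plane of the boundary -/
lemma Nl_plane (hx : ‖x‖ = 1) {X Z : Fin n → ℝ} (hX : ∑ i, Av C.H C.U f x i * X i = 0)
    (hZ : ∑ i, Av C.H C.U f x i * Z i = 0) :
    ∑ i, ∑ j, Nl l f (zz C.H C.U x) i j * X i * Z j =
      l 0 (pt (f (zz C.H C.U x)) (zz C.H C.U x)) *
        ∑ i, ∑ j, LL T (fun x => dts C.H (C.U x) x) x i j * X i * Z j := by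
  have h0 := ne_zero_of_one hx
  have hcomp : ∀ a z, z ≠ 0 → ContDiffAt ℝ ∞ (fun y => l a (pt (f y) y)) (zz C.H C.U z) := by
    intro a z hz
    have hm := zmem hS B hz
    exact ContDiffAt.comp (g := l a) (f := fun y => pt (f y) y) _ ((hS.ks _ hm).sml a)
      (X2.cd_pt (hS.smf _ hm))
  have hrel := rel_l B (h0 := fun y => l 0 (pt (f y) y)) (h := fun i y => l i.succ (pt (f y) y))
    (fun z hz => hcomp 0 z hz) (fun i z hz => hcomp i.succ z hz)
    (fun z hz i => zl hS B hz i) hx (Y := Z) hX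
  have hm := zmem hS B h0
  have hf : DifferentiableAt ℝ f (zz C.H C.U x) := (hS.smf _ hm).differentiableAt (by simp)
  have hl : ∀ a, DifferentiableAt ℝ (l a) (pt (f (zz C.H C.U x)) (zz C.H C.U x)) := fun a =>
    ((hS.ks _ hm).sml a).differentiableAt (by simp)
  have hd : ∀ a i, pd i (fun y => l a (pt (f y) y)) (zz C.H C.U x) =
      dsl (l a) f (zz C.H C.U x) i := fun a i => (dsl_eq (hl a) hf i).2
  simp only [hd] at hrel
  have hxZ : ∑ j, x j * Z j = - ∑ j, Stmt.pd j f (zz C.H C.U x) * Z j := by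
    have e : ∀ j, Av C.H C.U f x j * Z j = Stmt.pd j f (zz C.H C.U x) * Z j + x j * Z j := by
      intro j
      unfold Av Fv
      rw [X2.stmt_pd hf]
      ring
    simp only [e, Finset.sum_add_distrib] at hZ
    linarith
  rw [hxZ] at hrel
  have e : ∑ i, ∑ j, Nl l f (zz C.H C.U x) i j * X i * Z j =
      (∑ i, dsl (l 0) f (zz C.H C.U x) i * X i) * (∑ j, Stmt.pd j f (zz C.H C.U x) * Z j) +
        ∑ i, ∑ j, dsl (l j.succ) f (zz C.H C.U x) i * X i * Z j := by
    rw [Finset.sum_mul, ← Finset.sum_add_distrib]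
    refine Finset.sum_congr rfl fun i _ => ?_
    rw [Finset.mul_sum, ← Finset.sum_add_distrib]
    refine Finset.sum_congr rfl fun j _ => ?_
    unfold Nl
    ring
  rw [e, hrel]
  ring

end

/-- the closed form of the metric, as a field -/
def clL (l : Fin (n + 1) → E (n + 1) → ℝ) (V : E (n + 1) → ℝ) (f : E n → ℝ) : Stmt.Field n :=
  fun z i j => dl i j - Stmt.pd i f z * Stmt.pd j f z +
    V (pt (f z) z) * Li l f z i * Li l f z j

lemma indG_cl (l : Fin (n + 1) → E (n + 1) → ℝ) (V : E (n + 1) → ℝ) (f : E n → ℝ) (y : E n)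
    (i j : Fin n) : indG (ksL l V) f y i j = clL l V f y i j := KSL.indG_ksL l V f y i j

/-- the jet of the pull back of `l` -/
lemma hp_Li (hf : ContDiffAt ℝ ∞ f y) (hK : IsKS l V (pt (f y) y)) (k i : Fin n) :
    HP k (fun z => Li l f z i)
      (Nl l f y k i + l 0 (pt (f y) y) * Stmt.pd k (Stmt.pd i f) y) y := by
  have hfd : DifferentiableAt ℝ f y := hf.differentiableAt (by simp)
  have hl : ∀ a, DifferentiableAt ℝ (l a) (pt (f y) y) := fun a =>
    (hK.sml a).differentiableAt (by simp)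
  have h1 : ∀ a, HP k (fun z => l a (pt (f z) z)) (dsl (l a) f y k) y := fun a => by
    obtain ⟨d1, d2⟩ := dsl_eq (hl a) hfd k
    rw [← d2, ← X2.stmt_pd d1]
    exact HP.of_diff d1
  have h2 := ((h1 0).mul (HP.of_cd (H375.cd_pd hf i) (k := k))).add (h1 i.succ)
  have e : dsl (l 0) f y k * Stmt.pd i f y + l 0 (pt (f y) y) * Stmt.pd k (Stmt.pd i f) y +
      dsl (l i.succ) f y k =
      Nl l f y k i + l 0 (pt (f y) y) * Stmt.pd k (Stmt.pd i f) y := by
    unfold Nl
    ring
  rw [← e]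
  exact h2

/-- the derivative of the metric -/
lemma pd_clL (hf : ContDiffAt ℝ ∞ f y) (hK : IsKS l V (pt (f y) y)) (k i j : Fin n) :
    Stmt.pd k (fun z => clL l V f z i j) y =
      - (Stmt.pd k (Stmt.pd i f) y * Stmt.pd j f y + Stmt.pd i f y * Stmt.pd k (Stmt.pd j f) y) +
      dsl V f y k * (Li l f y i * Li l f y j) + V (pt (f y) y) *
        ((Nl l f y k i + l 0 (pt (f y) y) * Stmt.pd k (Stmt.pd i f) y) * Li l f y j +
          Li l f y i * (Nl l f y k j + l 0 (pt (f y) y) * Stmt.pd k (Stmt.pd j f) y)) := by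
  have hfd : DifferentiableAt ℝ f y := hf.differentiableAt (by simp)
  have hV : HP k (fun z => V (pt (f z) z)) (dsl V f y k) y := by
    obtain ⟨d1, d2⟩ := dsl_eq (hK.smV.differentiableAt (by simp)) hfd k
    rw [← d2, ← X2.stmt_pd d1]
    exact HP.of_diff d1
  have hp : ∀ i, HP k (Stmt.pd i f) (Stmt.pd k (Stmt.pd i f) y) y := fun i =>
    HP.of_cd (H375.cd_pd hf i)
  have h := ((HP.const k (dl i j) y).sub ((hp i).mul (hp j))).add
    ((hV.mul (hp_Li hf hK k i)).mul (hp_Li hf hK k j))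
  have h2 := h.pd
  show Stmt.pd k (fun z => dl i j - Stmt.pd i f z * Stmt.pd j f z +
    V (pt (f z) z) * Li l f z i * Li l f z j) y = _
  rw [h2]
  ring

lemma cd_clL (hf : ContDiffAt ℝ ∞ f y) (hK : IsKS l V (pt (f y) y)) (i j : Fin n) :
    ContDiffAt ℝ ∞ (fun z => clL l V f z i j) y := by
  have hc : ∀ {h : E (n + 1) → ℝ}, ContDiffAt ℝ ∞ h (pt (f y) y) →
      ContDiffAt ℝ ∞ (fun z => h (pt (f z) z)) y := fun {h} hh =>
    ContDiffAt.comp (g := h) (f := fun z => pt (f z) z) y hh (X2.cd_pt hf)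
  have hL : ∀ i, ContDiffAt ℝ ∞ (fun z => Li l f z i) y := fun i =>
    ((hc (hK.sml 0)).mul (H375.cd_pd hf i)).add (hc (hK.sml i.succ))
  exact (contDiffAt_const.sub ((H375.cd_pd hf i).mul (H375.cd_pd hf j))).add
    (((hc hK.smV).mul (hL i)).mul (hL j))

end Vale.Agent.P366.KSN.W
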